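import Vale.Agent.P366.Cohom.Main

open Vale.Agent.P366.Cohom

namespace Vale.Agent.Results.P366.CohomogeneityOne

/-- The spacetime Penrose inequality for the invariant exteriors of cohomogeneity one. -/
theorem result :
    (∀ (d e : ℕ), 1 ≤ d → 2 ≤ d + e → ∀ (D : Data (Fin e ⊕ Fin d)) (q : ℝ),
      D.Regular → D.AFlat q → D.DEC → D.thetaPlus D.r₀ ≤ 0 →
      (∀ r, D.r₀ ≤ r → HopfOrbit d e (D.h r) (D.R r)) → D.PenroseBound) ∧
    (∀ (k : ℕ) (D : Data (Fin (4 * k) ⊕ Fin 3)) (q : ℝ),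
      D.Regular → D.AFlat q → D.DEC → D.thetaPlus D.r₀ ≤ 0 →
      (∀ r, D.r₀ ≤ r → SpOrbit k (D.h r) (D.R r)) → D.PenroseBound) :=
  ⟨fun d e hd hde D q hD hA hE hS hO =>
      penroseBound_of_orbitBound (q := q) (by simp; omega) hD hA hE hS
        fun r hr => hopf_bound hd (hO r hr),
    fun k D q hD hA hE hS hO =>
      penroseBound_of_orbitBound (q := q) (by simp) hD hA hE hS
        fun r hr => sp_bound (hO r hr)⟩

end Vale.Agent.Results.P366.CohomogeneityOne
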